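import Vale.Agent.P181.RV.Defs
import Vale.Agent.P181.DX.H556.Sec

set_option autoImplicit false

/-!
# P181, RV [BIGV]: at least `a ^ 2 / polylog` cells below row two, `b ≥ (1 + δ) a`

If `FatLog` does not apply there are at most `q₀` rows `≥ b`, `q₀` a polylogarithm, and less than
`q₀ b` cells in the other rows. So `λ_3` is at least `a ^ 2` over a polylogarithm and one of the gaps
`λ_m - λ_{m+1}`, `3 ≤ m ≤ q₀ + 3`, is at least `a ^ 2` over a polylogarithm: `FinV`.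
-/

namespace Vale.Agent.P181.RV.H547

open Finset
open Vale.Agent.P181.T4 (ex)
open Vale.Agent.P181.H280 (plethMult)
open Vale.Agent.P181.PL
open Vale.Agent.P181.DX.H556 (FatLog)

lemma chain {n : ℕ} (lam : Fin n → ℕ) (s K : ℕ) (c A : ℝ)
    (h : ∀ r, s ≤ r → r < K → c * ((ex lam r : ℝ) - ex lam (r + 1)) ≤ A) :
    ∀ k, s + k ≤ K → c * ((ex lam s : ℝ) - ex lam (s + k)) ≤ k * A := by
  intro k
  induction k with
  | zero =>
    intro _
    simp
  | succ k ih =>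
    intro hk
    have h1 := ih (by omega)
    have h2 := h (s + k) (by omega) (by omega)
    have h3 : s + (k + 1) = s + k + 1 := by ring
    rw [h3]
    push_cast
    linarith

lemma num {A B Cp P Q Pp D T x y K : ℝ} (hA : 0 < A) (hP : 0 < P) (hQ : 0 < Q)
    (hD : A ^ 2 ≤ P * D) (hb : B < Cp * A * Pp) (hT : T < Q * B) (hK2 : 2 ≤ K) (hK : K ≤ Q)
    (hy : y ≤ T) (hDT : D ≤ T + (K - 2) * x)
    (hx : 2 * Q ^ 2 * P * (x - y) ≤ (K - 2) * A ^ 2) (hT0 : 0 ≤ T)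
    (ha : 2 * Q ^ 2 * P * (Cp * Pp) ≤ A) : False := by
  obtain ⟨P', hP'⟩ : ∃ P', P' = 2 * Q ^ 2 * P := ⟨_, rfl⟩
  have hP'0 : 0 < P' := by rw [hP']; positivity
  rw [← hP'] at hx ha
  have hx' : P' * x ≤ (K - 2) * A ^ 2 + P' * T := by
    have := mul_le_mul_of_nonneg_left hy hP'0.le
    linarith
  have hK0 : 0 ≤ K - 2 := by linarith
  have e1 : P' * D ≤ K * (P' * T) + (K - 2) ^ 2 * A ^ 2 := by
    have e2 := mul_le_mul_of_nonneg_left hDT hP'0.le
    have e3 := mul_le_mul_of_nonneg_left hx' hK0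
    have e4 : 0 ≤ P' * T := by positivity
    nlinarith
  have e2 : 2 * Q ^ 2 * A ^ 2 ≤ P' * D := by
    have e3 : 2 * Q ^ 2 * A ^ 2 ≤ 2 * Q ^ 2 * (P * D) :=
      mul_le_mul_of_nonneg_left hD (by positivity)
    calc 2 * Q ^ 2 * A ^ 2 ≤ 2 * Q ^ 2 * (P * D) := e3
      _ = P' * D := by rw [hP']; ring
  have e3 : (K - 2) ^ 2 ≤ Q ^ 2 := by nlinarith
  have e4 : (K - 2) ^ 2 * A ^ 2 ≤ Q ^ 2 * A ^ 2 :=
    mul_le_mul_of_nonneg_right e3 (by positivity)
  have e5 : Q ^ 2 * A ^ 2 ≤ K * (P' * T) := by linarith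
  have e6 : K * (P' * T) ≤ Q * (P' * T) :=
    mul_le_mul_of_nonneg_right hK (by positivity)
  have e7 : T < Q * (Cp * A * Pp) :=
    hT.trans (mul_lt_mul_of_pos_left hb hQ)
  have e8 : Q * (P' * T) < Q * (P' * (Q * (Cp * A * Pp))) :=
    mul_lt_mul_of_pos_left (mul_lt_mul_of_pos_left e7 hP'0) hQ
  have e9 : Q * (P' * (Q * (Cp * A * Pp))) = Q ^ 2 * A * (P' * (Cp * Pp)) := by ring
  have e10 : Q ^ 2 * A * (P' * (Cp * Pp)) ≤ Q ^ 2 * A * A :=
    mul_le_mul_of_nonneg_left ha (by positivity)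
  nlinarith

lemma dn_filter2 {n : ℕ} (lam : Fin (n + 2) → ℕ) : dn lam 2 = ∑ i : Fin n, lam i.succ.succ := by
  have h0 : dn lam 0 = ∑ i, lam i := dn_zero lam
  have h1 : dn lam 0 = ex lam 0 + dn lam 1 := dn_succ lam 0
  have h2 : dn lam 1 = ex lam 1 + dn lam 2 := dn_succ lam 1
  have h3 : ex lam 0 = lam 0 := exlt lam (Nat.succ_pos _)
  have h4 : ex lam 1 = lam 1 := exlt lam (by omega : 1 < n + 2)
  have h5 : ∑ i, lam i = lam 0 + ∑ i : Fin (n + 1), lam i.succ := Fin.sum_univ_succ lam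
  have h6 : ∑ i : Fin (n + 1), lam i.succ = lam 1 + ∑ i : Fin n, lam i.succ.succ :=
    Fin.sum_univ_succ (fun i : Fin (n + 1) => lam i.succ)
  omega

lemma mul_ex_le {n : ℕ} {g : Fin n → ℕ} (h : Antitone g) (k : ℕ) :
    k * ex g k + dn g k ≤ dn g 0 := by
  induction k with
  | zero => simp
  | succ k ih =>
    have h1 := dn_succ g k
    have h2 : ex g (k + 1) ≤ ex g k := exanti h (by omega)
    have h3 : k * ex g (k + 1) ≤ k * ex g k := Nat.mul_le_mul_left _ h2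
    have h4 : (k + 1) * ex g (k + 1) = k * ex g (k + 1) + ex g (k + 1) := by ring
    omega

/-- `FatLog` does not apply: few cells below row `q₀`. -/
lemma few_cells {n b q : ℕ} {lam : Fin n → ℕ} (h : Antitone lam) {Q : ℝ}
    (hQ : ∑ i, ((min b (lam i) : ℕ) : ℝ) < Q * b) (hq : Q ≤ q) : (dn lam q : ℝ) < Q * b := by
  obtain ⟨g, hg⟩ : ∃ g : Fin n → ℕ, g = fun i => min b (lam i) := ⟨_, rfl⟩
  have hga : Antitone g := by
    rw [hg]
    intro i j hij
    exact min_le_min le_rfl (h hij)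
  have h0 : (dn g 0 : ℝ) < Q * b := by
    rw [dn_zero, hg]
    push_cast at hQ ⊢
    exact hQ
  have h1 := mul_ex_le hga q
  have hexg : ex g q = min b (ex lam q) := by
    by_cases hqn : q < n
    · rw [exlt g hqn, exlt lam hqn, hg]
    · rw [exge g (by omega), exge lam (by omega)]
      simp
  have h2 : q * ex g q ≤ dn g 0 := by omega
  have h3 : ex lam q < b ∨ b = 0 := by
    by_contra hcon
    push Not at hcon
    have e1 : ex g q = b := by
      rw [hexg]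
      exact min_eq_left hcon.1
    rw [e1] at h2
    have e2 : ((q * b : ℕ) : ℝ) ≤ dn g 0 := by exact_mod_cast h2
    push_cast at e2
    have e3 : Q * b ≤ q * b := mul_le_mul_of_nonneg_right hq (Nat.cast_nonneg _)
    linarith
  rcases h3 with h3 | h3
  · have h4 : dn g q = dn lam q := by
      unfold dn
      apply Finset.sum_congr rfl
      intro i _
      by_cases hi : q ≤ (i : ℕ)
      · rw [if_pos hi, if_pos hi, hg]
        have e1 : lam i ≤ ex lam q := by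
          rw [← exfin lam i]
          exact exanti h hi
        show min b (lam i) = lam i
        exact min_eq_right (by omega)
      · rw [if_neg hi, if_neg hi]
    have h5 : dn lam q ≤ dn g 0 := by omega
    have h6 : (dn lam q : ℝ) ≤ dn g 0 := by exact_mod_cast h5
    linarith
  · exfalso
    rw [h3, Nat.cast_zero, mul_zero] at h0
    have : (0 : ℝ) ≤ dn g 0 := Nat.cast_nonneg _
    linarith

lemma log_small (A : ℝ) (n : ℕ) : ∃ a₀ : ℕ, ∀ a : ℕ, a₀ ≤ a →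
    A * (1 + Real.log a) ^ n ≤ a := by
  have h1 := (Real.isLittleO_pow_log_id_atTop (n := n)).bound
    (show (0 : ℝ) < 1 / ((|A| + 1) * Real.exp 1) by positivity)
  have h2 : Filter.Tendsto (fun a : ℕ => Real.exp 1 * (a : ℝ)) Filter.atTop Filter.atTop :=
    tendsto_natCast_atTop_atTop.const_mul_atTop (Real.exp_pos 1)
  obtain ⟨a₀, ha₀⟩ := Filter.eventually_atTop.mp (h2.eventually h1)
  refine ⟨max a₀ 1, fun a ha => ?_⟩
  have ha1 : 1 ≤ a := (le_max_right _ _).trans ha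
  have hapos : (0 : ℝ) < a := by exact_mod_cast ha1
  have h3 := ha₀ a ((le_max_left _ _).trans ha)
  rw [Real.log_mul (Real.exp_pos 1).ne' hapos.ne', Real.log_exp] at h3
  have hL : 0 ≤ 1 + Real.log a := by linarith [Real.log_natCast_nonneg a]
  rw [Real.norm_of_nonneg (pow_nonneg hL n), id, Real.norm_of_nonneg (by positivity)] at h3
  have h4 : 1 / ((|A| + 1) * Real.exp 1) * (Real.exp 1 * (a : ℝ)) = a / (|A| + 1) := by
    field_simp
  rw [h4] at h3
  have hA1 : 0 < |A| + 1 := by positivity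
  rw [le_div_iff₀ hA1] at h3
  have h5 : 0 ≤ (1 + Real.log a) ^ n := pow_nonneg hL n
  calc A * (1 + Real.log a) ^ n ≤ (|A| + 1) * (1 + Real.log a) ^ n :=
        mul_le_mul_of_nonneg_right (by linarith [le_abs_self A]) h5
    _ = (1 + Real.log a) ^ n * (|A| + 1) := mul_comm _ _
    _ ≤ a := h3

/-- **[BIGV]** from [FINV], `FatLog` and the near linear theorem. -/
theorem bigV (hF : FinV) (hFat : FatLog) (hP : PolyS) : BigV := by
  intro δ hδ C₀ c₀ hC₀ hc₀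
  obtain ⟨Cf, cf, hCf, hfat⟩ := hFat
  obtain ⟨Cp, cp, hCp, hp⟩ := hP
  obtain ⟨G, hG⟩ : ∃ G : ℝ, G = Cf * (1 + δ) / δ + 5 := ⟨_, rfl⟩
  have hG1 : 0 < Cf * (1 + δ) / δ := by positivity
  have hG5 : 5 ≤ G := by linarith
  obtain ⟨a₁, ha₁⟩ := hF δ hδ (2 * G ^ 2 * C₀) ((2 * cf : ℕ) + c₀) (by positivity) (by positivity)
  obtain ⟨a₂, ha₂⟩ := log_small (2 * G ^ 2 * C₀ * Cp) (2 * cf + ⌈c₀⌉₊ + cp)
  refine ⟨max (max a₁ a₂) 1, fun a b n lam haa hab hD => ?_⟩
  have haa1 : a₁ ≤ a := (le_max_left _ _).trans ((le_max_left _ _).trans haa)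
  have haa2 : a₂ ≤ a := (le_max_right _ _).trans ((le_max_left _ _).trans haa)
  have haa3 : 1 ≤ a := (le_max_right _ _).trans haa
  by_cases hz : plethMult a b (n + 2) lam = 0
  · rw [hz]
    exact Nat.zero_le _
  obtain ⟨hanti, hsum, -⟩ := H530.zero_stmt a b (n + 2) lam hz
  obtain ⟨L, hLdef⟩ : ∃ L : ℝ, L = 1 + Real.log a := ⟨_, rfl⟩
  have hL1 : 1 ≤ L := by
    rw [hLdef]
    linarith [Real.log_natCast_nonneg a]
  have hL0 : 0 < L := by linarith
  have hA : (0 : ℝ) < a := by exact_mod_cast haa3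
  have habR : (a : ℝ) ≤ b := by nlinarith
  have hab' : a ≤ b := by exact_mod_cast habR
  have hB : (0 : ℝ) < b := by linarith
  by_cases hpl : Cp * a * (1 + Real.log a) ^ cp ≤ b
  · exact hp a b hpl (n + 2) lam
  by_cases hft : Cf * (1 + Real.log a) ^ cf * (b : ℝ) ^ 2 ≤
      ((b : ℝ) - a) * ∑ i, ((min b (lam i) : ℕ) : ℝ)
  · exact hfat a b (n + 2) lam hab' hft
  have ha₃ := ha₂ a haa2
  rw [← hLdef] at hpl hft hD ha₃
  push Not at hpl hft
  obtain ⟨Q, hQ⟩ : ∃ Q : ℝ, Q = Cf * (1 + δ) / δ * L ^ cf := ⟨_, rfl⟩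
  obtain ⟨Q1, hQ1⟩ : ∃ Q1 : ℝ, Q1 = G * L ^ cf := ⟨_, rfl⟩
  have hLc : (1 : ℝ) ≤ L ^ cf := one_le_pow₀ hL1
  have hQ0 : 0 < Q := by rw [hQ]; positivity
  have hQQ : Q + 5 ≤ Q1 := by
    rw [hQ, hQ1, hG]
    nlinarith
  -- few cells in the columns `≤ b`
  have hmin : ∑ i, ((min b (lam i) : ℕ) : ℝ) < Q * b := by
    obtain ⟨S, hS⟩ : ∃ S : ℝ, S = ∑ i, ((min b (lam i) : ℕ) : ℝ) := ⟨_, rfl⟩
    rw [← hS] at hft ⊢
    have hS0 : 0 ≤ S := by
      rw [hS]
      exact Finset.sum_nonneg fun i _ => Nat.cast_nonneg _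
    have e1 : δ * b ≤ (1 + δ) * ((b : ℝ) - a) := by nlinarith
    have e2 : δ * b * S ≤ (1 + δ) * (((b : ℝ) - a) * S) := by
      have := mul_le_mul_of_nonneg_right e1 hS0
      linarith
    have e3 : (1 + δ) * (((b : ℝ) - a) * S) < (1 + δ) * (Cf * L ^ cf * (b : ℝ) ^ 2) :=
      mul_lt_mul_of_pos_left hft (by positivity)
    have e4 : δ * b * S < δ * b * (Q * b) := by
      calc δ * b * S < (1 + δ) * (Cf * L ^ cf * (b : ℝ) ^ 2) := lt_of_le_of_lt e2 e3
        _ = δ * b * (Q * b) := by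
          rw [hQ]
          field_simp
    exact lt_of_mul_lt_mul_left e4 (by positivity)
  obtain ⟨K, hK⟩ : ∃ K : ℕ, K = ⌈Q⌉₊ + 3 := ⟨_, rfl⟩
  have hK3 : 3 ≤ K := by omega
  have hKQ : (K : ℝ) ≤ Q1 := by
    rw [hK]
    push_cast
    have := Nat.ceil_lt_add_one hQ0.le
    linarith
  have hT : (dn lam K : ℝ) < Q1 * b := by
    have e1 : (dn lam ⌈Q⌉₊ : ℝ) < Q * b := few_cells hanti hmin (Nat.le_ceil Q)
    have e2 : (dn lam K : ℝ) ≤ dn lam ⌈Q⌉₊ := by
      exact_mod_cast dn_anti lam (by omega : ⌈Q⌉₊ ≤ K)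
    have e3 : Q * (b : ℝ) ≤ Q1 * b := mul_le_mul_of_nonneg_right (by linarith) hB.le
    linarith
  obtain ⟨P, hPd⟩ : ∃ P : ℝ, P = C₀ * L ^ c₀ := ⟨_, rfl⟩
  have hPpos : 0 < P := by rw [hPd]; positivity
  have eD : ((dn lam 2 : ℕ) : ℝ) = ∑ i : Fin n, (lam i.succ.succ : ℝ) := by
    rw [dn_filter2]
    push_cast
    rfl
  rw [← eD, ← hPd] at hD
  -- the size of `a`
  have hbig : 2 * Q1 ^ 2 * P * (Cp * L ^ cp) ≤ a := by
    refine le_trans ?_ ha₃
    have e1 : L ^ c₀ ≤ L ^ ⌈c₀⌉₊ := by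
      rw [← Real.rpow_natCast]
      exact Real.rpow_le_rpow_of_exponent_le hL1 (Nat.le_ceil c₀)
    have e2 : 2 * Q1 ^ 2 * P * (Cp * L ^ cp) =
        2 * G ^ 2 * C₀ * Cp * (L ^ (2 * cf + cp) * L ^ c₀) := by
      rw [hQ1, hPd, pow_add, pow_mul']
      ring
    have e3 : L ^ (2 * cf + ⌈c₀⌉₊ + cp) = L ^ (2 * cf + cp) * L ^ ⌈c₀⌉₊ := by
      rw [← pow_add]
      congr 1
      ring
    rw [e2, e3]
    exact mul_le_mul_of_nonneg_left (mul_le_mul_of_nonneg_left e1 (by positivity))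
      (by positivity)
  have hexp : 2 * G ^ 2 * C₀ * L ^ (((2 * cf : ℕ) : ℝ) + c₀) = 2 * Q1 ^ 2 * P := by
    rw [Real.rpow_add hL0, Real.rpow_natCast, hQ1, hPd, pow_mul']
    ring
  -- a long gap
  obtain ⟨r, hr2, hrK, hgap⟩ : ∃ r, 2 ≤ r ∧ r < K ∧
      (a : ℝ) ^ 2 ≤ 2 * Q1 ^ 2 * P * ((ex lam r : ℝ) - ex lam (r + 1)) := by
    by_contra hcon
    push Not at hcon
    have e1 := chain lam 2 K (2 * Q1 ^ 2 * P) ((a : ℝ) ^ 2)
      (fun r h h' => (hcon r h h').le) (K - 2) (by omega)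
    have e2 : 2 + (K - 2) = K := by omega
    rw [e2, Nat.cast_sub (by omega : 2 ≤ K), Nat.cast_ofNat] at e1
    have e3 : (ex lam K : ℝ) ≤ dn lam K := by exact_mod_cast ex_le_dn lam K
    have e4 : (dn lam 2 : ℝ) ≤ dn lam K + ((K : ℝ) - 2) * ex lam 2 := by
      have e5 := dn_le hanti 2 (K - 2)
      rw [e2] at e5
      have e6 : (dn lam 2 : ℝ) ≤ (dn lam K : ℝ) + ((K - 2 : ℕ) : ℝ) * (ex lam 2 : ℝ) := by
        exact_mod_cast e5
      rwa [Nat.cast_sub (by omega : 2 ≤ K), Nat.cast_ofNat] at e6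
    exact num hA hPpos (by linarith) hD hpl hT
      (by exact_mod_cast (by omega : 2 ≤ K)) hKQ e3 e4 e1 (Nat.cast_nonneg _) hbig
  have hC0p : 0 < 2 * Q1 ^ 2 * P := by
    have : 0 < Q1 := by linarith
    positivity
  have hrn : r < n + 2 := by
    by_contra hcon
    have e1 : ex lam r = 0 := exge lam (by omega)
    have e2 : ex lam (r + 1) = 0 := exge lam (by omega)
    rw [e1, e2, Nat.cast_zero, sub_zero, mul_zero] at hgap
    have : 0 < (a : ℝ) ^ 2 := by positivity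
    linarith
  refine ha₁ a b (r + 1) (n + 2) lam haa1 hanti hsum hab (by omega) (by omega) ?_
  intro i hi
  have e1 : ex lam r ≤ lam i := by
    rw [← exfin lam i]
    exact exanti hanti (by omega)
  have e2 : (ex lam r : ℝ) ≤ lam i := by exact_mod_cast e1
  rw [← hLdef, hexp]
  constructor
  · refine hgap.trans (mul_le_mul_of_nonneg_left ?_ hC0p.le)
    have e3 : (0 : ℝ) ≤ ex lam (r + 1) := Nat.cast_nonneg _
    linarith
  · intro j hj
    refine hgap.trans (mul_le_mul_of_nonneg_left ?_ hC0p.le)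
    have e3 : lam j ≤ ex lam (r + 1) := by
      rw [← exfin lam j]
      exact exanti hanti (by omega)
    have e4 : (lam j : ℝ) ≤ ex lam (r + 1) := by exact_mod_cast e3
    linarith

end Vale.Agent.P181.RV.H547
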